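import Vale.Agent.P154.SP.Charts

set_option maxRecDepth 100000

namespace Vale.Agent.P154.SP

open Cert InT OutT

/-- Certificate tree. -/
def tr01_r100001000 : OutT :=
(A (B (A (O (c (c l (c l (c l l))) (c (d l (c l k)) k))) (B (A (O (c (c l (c (c l l) (d l (c l l)))) (c (d l (c (c l k) k)) k))) (B (A (O (c (c l (d l (c (c l l) (c l l)))) (c (d l (c (c l k) k)) k))) (B (A (O (c (c (c l l) (d l (c (c l (c l l)) (c (c l l) l)))) (c (d l (c (c l k) k)) k))) (B (A (O (c (c (c l l) (d l (c (c l (d l (c l l))) (c (c (d l l) l) l)))) (c (d l (c (c l k) k)) k))) s) (O (c (c (c l l) (d l (c (c (c l l) (d l (c (c l (c l l)) (d l (c l l))))) (c (c (d l (c l l)) l) l)))) (c (d l (c (c l k) k)) k))))) (O (c (c (c l l) (d l (c (c (c l l) (d l (c l l))) (c (c (d l l) l) l)))) (c (d l (c (c l k) k)) k))))) (O (c (c (c l l) (d l (c (c l (c l (c l l))) (c (c (c l l) l) l)))) (c (d l (c (c l k) k)) k))))) (O (c (c l (d l (c (c l l) (c (c l l) l)))) (c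 (d l (c (c l k) k)) k))))) (O (c (c l (c (c l l) (d l (c l l)))) (c (d l (c (c l k) k)) k)))) (B (A (B (A (B (A (B s (A (B s (A (O (c (c (c l l) (d l (c (c (c l l) (d l (c (c l (d l l)) (d l (c (c l l) l))))) (c (c (d l (c l l)) l) l)))) (c (d l (c (c l k) k)) k))) s)) s)) s) (A (B (A (B (A (O (c (c (c l l) (d l (c (c (c l l) (d l (c (c l l) (c l l)))) (c (c (d l l) l) l)))) (c (d l (c (c l k) k)) k))) s) (O (c (c (c l l) (d l (c (c (c l l) (d l (c (c l (d l (c l (d l l)))) (d l (c (d l (c (c l (c l l)) (c l l))) (c (c l l) l)))))) (c (c (d l (c l l)) (c l l)) l)))) (c (d l (c (c l k) k)) k)))) s) (A (O (c (c (c l l) (d l (c (c (c l l) (d l (c (c l l) (d l l)))) (c (c (d l l) l) l)))) (c (d l (c (c l k) k)) k))) (B s (A (B s (O (c (c (c l l) (d l (c (c (c l l) (d l (c (c l (d l (c l l))) (d l (c (d l l) l))))) (c (c (d l (c l l)) l) l)))) (c (d l (c (c l k) k)) k)))) s)))) s)) s) (A (B (A (B (A (O (c (c (c l l) (d l (c (c l (d l (c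 l l))) (c (c (c l l) l) l)))) (c (d l (c (c l k) k)) k))) (B (A (O (c (c (c l l) (d l (c (c (c l l) (d l (c (c l (c l l)) (d l (c l l))))) (c (c (d l (c l l)) l) l)))) (c (d l (c (c l k) k)) k))) s) (A (O (c (c (c l l) (d l (c (c (c l l) (d l (c l l))) (c (c (d l l) l) l)))) (c (d l (c (c l k) k)) k))) s))) (O (c (c (c l l) (d l (c (c (c l l) (d l (c (c l (d l l)) (d l (c l l))))) (c (c (d l (c l l)) l) l)))) (c (d l (c (c l k) k)) k)))) s) (A (O (c (c (c l l) (d l (c (c l (d l (c l l))) (c (c (c l l) l) l)))) (c (d l (c (c l k) k)) k))) (B (A (B (A (O (c (c (c l l) (d l (c (c (c l l) (d l (c (c l (d l (c l (c l l)))) (d l (c (d l (c l l)) (c l l)))))) (c (c (d l (c l l)) l) l)))) (c (d l (c (c l k) k)) k))) s) (A (O (c (c (c l l) (d l (c (c (c l l) (d l (c (c l l) (c l l)))) (c (c (d l l) l) l)))) (c (d l (c (c l k) k)) k))) s)) s) (A (B (A (O (c (c (c l l) (d l (c (c l (d l (c l l))) (c (c (d l l) l) l)))) (c (d l (c (c l k) k)) k)))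 (B s (O (c (c (c l l) (d l (c (c (c l l) (d l (c (c l (d l (c l l))) (d l (c l l))))) (c (c (d l (c l l)) l) l)))) (c (d l (c (c l k) k)) k))))) (O (c (c (c l l) (d l (c (c (c l l) (d l (c (c l l) (c (c l l) l)))) (c (c (d l l) l) l)))) (c (d l (c (c l k) k)) k)))) s)))) s)) s) (A (B (A (B (A (O (c (c (c l l) (d l (c (c l (c l l)) (c (c l l) l)))) (c (d l (c (c l k) k)) k))) (B (A (O (c (c (c l l) (d l (c (c (c l l) (d l (c l l))) (c (c (d l l) l) l)))) (c (d l (c (c l k) k)) k))) (B (A (B s (O (c (c (c l l) (d l (c (c (c l l) (d l (c (c l (d l (c l (c l l)))) (d l (c (d l (c l l)) (c l l)))))) (c (c (d l (c l l)) l) l)))) (c (d l (c (c l k) k)) k)))) s) (A (O (c (c (c l l) (d l (c (c (c l l) (d l (c (c l (c l l)) (c (d l l) (c l l))))) (c (c (d l l) l) l)))) (c (d l (c (c l k) k)) k))) s))) (A (O (c (c (c l l) (d l (c (c l (c l l)) (c (c l l) l)))) (c (d l (c (c l k) k)) k))) (B (A (O (c (c (c l l) (d l (c (c (c l l) (d l (c l l)))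 (c (c (d l l) l) l)))) (c (d l (c (c l k) k)) k))) (B s (A (O (c (c (c l l) (d l (c (c (c l l) (d l (c (c l l) (c l l)))) (c (c (d l l) l) l)))) (c (d l (c (c l k) k)) k))) s))) (O (c (c (c l l) (d l (c (c (c l l) (d l (c (c l (d l l)) (d l (c l l))))) (c (c (d l (c l l)) l) l)))) (c (d l (c (c l k) k)) k))))))) (O (c (c (c l l) (d l (c (c (c l l) (d l (c (c l l) (c l l)))) (c (c (d l l) l) l)))) (c (d l (c (c l k) k)) k)))) (B s (A (B (A (B s (A (O (c (c (c l l) (d l (c (c (c l l) (d l (c (c l (d l (c l l))) (d l (c (c l l) l))))) (c (c (d l (c l l)) l) l)))) (c (d l (c (c l k) k)) k))) s)) s) (A (B (A (O (c (c (c l l) (d l (c (c (c l l) (d l (c (c l l) (c l l)))) (c (c (d l l) l) l)))) (c (d l (c (c l k) k)) k))) s) (O (c (c (c l l) (d l (c (c (c l (c l l)) (d l (d l (c (c l (c l (d l (c l l)))) (c (d l (c (c l l) l)) (c l l)))))) (c (c (d l (c l l)) l) l)))) (c (d l (c (c l k) k)) k)))) s)) s))) (A (O (c (c (c l l) (d l (c (c l (c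 l l)) (c (c l l) l)))) (c (d l (c (c l k) k)) k))) (B (A (B (A (O (c (c (c l l) (d l (c (c (c l l) (d l (c (c l l) (c l l)))) (c (c (d l l) l) l)))) (c (d l (c (c l k) k)) k))) (B s (A (B (A (O (c (c (c l l) (d l (c (c (c l l) (d l (c (c l l) (c l l)))) (c (c (d l l) l) l)))) (c (d l (c (c l k) k)) k))) s) (O (c (c (c l l) (d l (c (c (c l l) (d l (c (c l (d l l)) (d l (c l l))))) (c (c (d l (c l l)) l) l)))) (c (d l (c (c l k) k)) k)))) s))) (A (O (c (c (c l l) (d l (c (c l (c l (c l l))) (c (c l l) l)))) (c (d l (c (c l k) k)) k))) (B (A (O (c (c (c l l) (d l (c (c (c l l) (d l (c (c l l) (c l l)))) (c (c (d l l) l) l)))) (c (d l (c (c l k) k)) k))) s) (A (O (c (c (c l l) (d l (c (c (c l l) (d l (c l l))) (c (c (c l l) l) l)))) (c (d l (c (c l k) k)) k))) (B s (O (c (c (c l l) (d l (c (c (c l l) (d l (c (c l (d l (c l l))) (d l (c (c l l) l))))) (c (c (d l (c l l)) l) l)))) (c (d l (c (c l k) k)) k)))))))) s) (A (O (c (c (c l l) (d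 l (c (c (c l l) (d l (c (c l (c l l)) (c (c l l) l)))) (c (c (d l l) l) l)))) (c (d l (c (c l k) k)) k))) (B (A (B s (A (B s (O (c (c (c l l) (d l (c (c (c l (c l l)) (d l (d l (c (c l (c l (c l l))) (c (c (c l l) l) l))))) (c (c (d l (c l l)) l) l)))) (c (d l (c (c l k) k)) k)))) s)) s) (A (B (A (O (c (c (c l l) (d l (c (c (c l l) (d l (c (c l (c l l)) (c (c l l) l)))) (c (c (d l l) l) l)))) (c (d l (c (c l k) k)) k))) s) (A (O (c (c (c l l) (d l (c (c (c l l) (d l (c l l))) (c (c (d l l) l) l)))) (c (d l (c (c l k) k)) k))) (B s (O (c (c (c l l) (d l (c (c (c l (c l l)) (d l (d l (c (c l (c l (d l l))) (c (d l (c l l)) l))))) (c (c (d l (c l l)) l) l)))) (c (d l (c (c l k) k)) k)))))) s)))))) s)))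

theorem s01_r100001000 : Sound P01 36864 1024 0 2048 :=
  chkOut3_sound P01 KK tr01_r100001000 36864 1024 0 2048 (by decide +kernel)

end Vale.Agent.P154.SP
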