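import Vale.Agent.P154.SP.Charts

set_option maxRecDepth 100000

namespace Vale.Agent.P154.SP

open Cert InT OutT

/-- Certificate tree. -/
def tr11_r100 : OutT :=
(A (B (A (B (A (O (c (c l l) (c (d l (c l k)) k))) (O (c (c l (d l (c (c l (c l l)) (c (c l l) (c l l))))) (c (d (d l (c l k)) (c (c l k) k)) k)))) (A (O (c (c l (c l l)) (c (d l (c l k)) k))) (B (A (O (c (c l (c l l)) (c (d l (c l k)) k))) (B (O (c (c l (d l (c (c l l) (c (c l l) l)))) (c (d (c l k) (c (c l k) k)) k))) (O (c (c l (d l (c (c l (d l (c (c l l) (d l (c (c l l) (d l (c l l))))))) (c (d l (c (c (d l (c (c l l) l)) (c l l)) l)) (c l l))))) (c (d (d l l) (c (c l k) k)) k))))) (A (O (c (c l (c l (c l l))) (c (d l (c (c l k) k)) k))) (B (A (O (c (c l (c (c l l) (d l (c l l)))) (c (d (c l k) (c (c l k) k)) k))) (B (A (O (c (c l (d l (c (c l l) (c l l)))) (c (d (c l k) (c (c l k) k)) k))) s) (A (O (c (c l (d l (c (c l l) (c l l)))) (c (d (c l k) (c (c l k) k)) k)))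 s))) (A (O (c (c l (c (c l l) (d l (c l l)))) (c (d (c l k) (c (c l k) k)) k))) (B (A (O (c (c l (d l (c (c l (c l l)) (c (c l l) l)))) (c (d (d l l) (c (c l k) k)) k))) s) s))))))) (B (A (B (A (B (A (O (c (c l (c (c l l) (c (c l l) (c l l)))) (c (d l (c (c l k) k)) k))) (B (A (O (c (c l (d l (c (c l l) (c l l)))) (c (d l (c (c l k) k)) k))) (B (A (O (c (c (c l l) (d l (c (c l (c l l)) (c (c l l) l)))) (c (d l (c (c l k) k)) k))) (B (A (O (c (c (c l l) (d l (c (c l (d l (c l l))) (c (c (d l l) l) l)))) (c (d l (c (c l k) k)) k))) (B (A (O (c (c (c l l) (d l (c (c (c l l) (d l (c (c l l) (c l l)))) (c (c (d l l) l) l)))) (c (d l (c (c l k) k)) k))) s) s)) (A (O (c (c (c l l) (d l (c (c (c l l) (d l (c (c l (d l l)) (d l (c l l))))) (c (c (d l (c l l)) (c l l)) l)))) (c (d l (c (c l k) k)) k))) s))) (A (O (c (c (c l l) (d l (c (c (c l l) (d l (c (c l l) (c l l)))) (c (c (d l l) l) l)))) (c (d l (c (c l k) k)) k))) (B (A (B (A (O (c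 (c (c l l) (d l (c (c l (d l (c l l))) (c (c (d l l) l) l)))) (c (d l (c (c l k) k)) k))) s) (A (O (c (c (c l l) (d l (c (c (c l l) (d l (c (c l l) (d l l)))) (c (c (d l l) l) l)))) (c (d l (c (c l k) k)) k))) s)) s) s)))) (A (O (c (c (c l l) (d l (c (c l (d l (c l l))) (c (c (c l l) l) l)))) (c (d l (c (c l k) k)) k))) (B (A (B (A (O (c (c (c l l) (d l (c (c l (d l (c l l))) (c (c l l) l)))) (c (d l (c (c l k) k)) k))) (B (O (c (c (c l l) (d l (c (c (c l l) (d l (c (c l (d l l)) (d l (c l l))))) (c (c (d l (c l l)) (c l l)) l)))) (c (d l (c (c l k) k)) k))) (A (O (c (c (c l l) (d l (c (c l (d l (c l l))) (c (c (d l l) l) l)))) (c (d l (c (c l k) k)) k))) s))) (A (O (c (c (c l l) (d l (c (c l (d l (c l l))) (c (c (d l l) l) l)))) (c (d l (c (c l k) k)) k))) (B (A (O (c (c (c l l) (d l (c (c (c l l) (d l (c (c l l) (d l l)))) (c (c (d l (c l l)) l) l)))) (c (d l (c (c l k) k)) k))) s) s))) s) (A (B (A (O (c (c (c l l) (d l (c (c (c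 l l) (d l (c (c l (d l l)) (d l (c l l))))) (c (c (d l (c l l)) (c l l)) l)))) (c (d l (c (c l k) k)) k))) s) (A (B (A (O (c (c (c l l) (d l (c (c l (d l (c l l))) (c (c (d l l) l) l)))) (c (d l (c (c l k) k)) k))) s) s) s)) s))))) (A (O (c (c l (d l (c (c l (c l l)) (c (c l l) l)))) (c (d l (c (c l k) k)) k))) (B (A (B (A (O (c (c l (d l (c (c l l) (c l l)))) (c (d l (c (c l k) k)) k))) (B (O (c (c (c l l) (d l (c (c l (d l (c l (c l l)))) (c (c (d l l) l) l)))) (c (d l (c (c l k) k)) k))) (A (O (c (c (c l l) (d l (c (c l (d l (c l l))) (c (c l l) l)))) (c (d l (c (c l k) k)) k))) (B (O (c (c (c l l) (d l (c (c (c l l) (d l (c (c l (c l l)) (d l (c l l))))) (c (c (d l (c l l)) (c l l)) l)))) (c (d l (c (c l k) k)) k))) (A (O (c (c (c l l) (d l (c (c l (d l (c l l))) (c (c (d l l) l) l)))) (c (d l (c (c l k) k)) k))) s))))) (A (O (c (c l (d l (c (c l (c l l)) (c (c l l) l)))) (c (d l (c (c l k) k)) k))) (B (A (O (c (c (c l l) (d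 l (c (c l (d l (c l l))) (c (c (d l l) l) l)))) (c (d l (c (c l k) k)) k))) s) (A (O (c (c (c l l) (d l (c (c (c l l) (d l (c (c l l) (d l l)))) (c (c (d l (c l l)) (c l l)) l)))) (c (d l (c (c l k) k)) k))) s)))) s) (A (B (A (O (c (c (c l l) (d l (c (c l (d l (c l l))) (c (c (d l l) l) l)))) (c (d l (c (c l k) k)) k))) s) (A (B (O (c (c (c l l) (d l (c (c (c l l) (d l (c (c l (c l l)) (d l (c (c l l) l))))) (c (d l (c (c l l) l)) l)))) (c (d (c l k) (c (c l k) k)) k))) (A (O (c (c (c l l) (d l (c (c l (d l (c l l))) (c (c (c l l) l) l)))) (c (d l (c (c l k) k)) k))) s)) s)) s)))) s) (A (B (A (B (O (c (c (c l l) (d l (c (c l (d l (c l (c l l)))) (c (c (d l (c l l)) (c l l)) l)))) (c (d (c l k) (c (c l k) k)) k))) (A (O (c (c l (d l (c (c l l) (c l l)))) (c (d l (c (c l k) k)) k))) (B (A (O (c (c l (d l (c (c l (c l l)) (c (c l l) l)))) (c (d l (c (c l k) k)) k))) (B (O (c (c (c l l) (d l (c (c (c l l) (d l (c (c l (d l (c l l)))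 (d l (d l (c (c l (c l l)) (c l l))))))) (c (d l (c (c (d l l) l) l)) (c l l))))) (c (d (c l k) (c (c l k) k)) k))) (A (O (c (c l (d l (c (c l (d l (c l l))) (c (c (d l l) l) l)))) (c (d (c l k) (c (c l k) k)) k))) s))) (A (O (c (c l (d l (c (c l (d l (c l l))) (c (c l l) l)))) (c (d (c l k) (c (c l k) k)) k))) s)))) (B (A (B (A (B (A (O (c (c (c l l) (d l (c (c l (d l (c l (c l l)))) (c (c (d l l) l) l)))) (c (d l (c (c l k) k)) k))) s) s) s) s) s) s)) (A (B (A (O (c (c l (d l (c (c l (c l l)) (c (c l l) l)))) (c (d (c l k) (c (c l k) k)) k))) (B (A (O (c (c (c l l) (d l (c (c l (d l (c l (c l l)))) (c (c (d l l) (c l l)) l)))) (c (d (c l k) (c (c l k) k)) k))) s) (A (B (O (c (c (c l l) (d l (c (c (c l l) (d l (c (c l (d l l)) (d l (c (c l (c l l)) (c l l)))))) (c (d l (c (c (d l l) l) l)) (c l l))))) (c (d (c l k) (c (c l k) k)) k))) s) s))) (A (O (c (c l (d l (c (c l (d l (c l (c l l)))) (c (c (d l l) (c l l)) l)))) (c (d (c l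 k) (c (c l k) k)) k))) s)) s)) s)) s) (A (B (A (B (A (B (A (B (A (O (c (c l (d l (c (c l l) (c (c l l) l)))) (c (d (c l k) (c (c l k) k)) k))) s) (A (O (c (c l (d l (c (c l (c l l)) (c (c l l) l)))) (c (d (c l k) (c (c l k) k)) k))) s)) s) (A (B (A (O (c (c l (d l (c (c l (d l (c l l))) (c (c (d l l) l) l)))) (c (d (c l k) (c (c l k) k)) k))) s) s) s)) s) s) s) s) s))) (A (B (A (O (c (c l (c l (c l l))) (c (d (c l k) (c (c l k) k)) k))) (B (A (O (c (c l (c l (d l l))) (c (d (c l k) (c (c l k) k)) k))) (B (A (O (c (c l (d l (c (c l l) (c l l)))) (c (d (d l l) (c (c l k) k)) k))) s) (A (O (c (c l (d l (c (c l l) (c l l)))) (c (d (d l l) (c (c l k) k)) k))) s))) (A (O (c (c l (c l (d l (c l l)))) (c (d (d l l) (c (c l k) k)) k))) (B (A (O (c (c l (d l (c (c l l) (c (c l l) l)))) (c (d (d l l) (c (c l k) k)) k))) s) s)))) (A (O (c (c l (c l (c l l))) (c (d (d l l) (c (c l k) k)) k))) (B (A (O (c (c l (c l (d l l))) (c (d (d l l) (c (c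 l k) k)) k))) s) (A (O (c (c l (c l (d l l))) (c (d (d (c l k) l) (c (c l k) k)) k))) s)))) s)) s)

theorem s11_r100 : Sound P11 32768 8192 0 16384 :=
  chkOut3_sound P11 KK tr11_r100 32768 8192 0 16384 (by decide +kernel)

end Vale.Agent.P154.SP
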