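import Vale.Agent.P154.SP.T00_r0
import Vale.Agent.P154.SP.T00_r10
import Vale.Agent.P154.SP.T00_r11
import Vale.Agent.P154.SP.T01_r0
import Vale.Agent.P154.SP.T01_r100000
import Vale.Agent.P154.SP.T01_r100001000
import Vale.Agent.P154.SP.T01_r100001001
import Vale.Agent.P154.SP.T01_r10000101
import Vale.Agent.P154.SP.T01_r1000011
import Vale.Agent.P154.SP.T01_r10001
import Vale.Agent.P154.SP.T01_r1001
import Vale.Agent.P154.SP.T01_r101
import Vale.Agent.P154.SP.T01_r11
import Vale.Agent.P154.SP.T10_r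
import Vale.Agent.P154.SP.T11_r0
import Vale.Agent.P154.SP.T11_r100
import Vale.Agent.P154.SP.T11_r101
import Vale.Agent.P154.SP.T11_r11

namespace Vale.Agent.P154.SP

open Cert

theorem s00_r1 : Sound P00 32768 16384 0 32768 :=
  sound_splitA P00 32768 8192 16384 0 32768 rfl s00_r10 s00_r11

theorem s00_r : Sound P00 0 32768 0 32768 :=
  sound_splitA P00 0 16384 32768 0 32768 rfl s00_r0 s00_r1

theorem s01_r10000100 : Sound P01 36864 1024 0 4096 :=
  sound_splitB P01 36864 1024 0 2048 4096 rfl s01_r100001000 s01_r100001001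

theorem s01_r1000010 : Sound P01 36864 2048 0 4096 :=
  sound_splitA P01 36864 1024 2048 0 4096 rfl s01_r10000100 s01_r10000101

theorem s01_r100001 : Sound P01 36864 2048 0 8192 :=
  sound_splitB P01 36864 2048 0 4096 8192 rfl s01_r1000010 s01_r1000011

theorem s01_r10000 : Sound P01 32768 4096 0 8192 :=
  sound_splitA P01 32768 2048 4096 0 8192 rfl s01_r100000 s01_r100001

theorem s01_r1000 : Sound P01 32768 4096 0 16384 :=
  sound_splitB P01 32768 4096 0 8192 16384 rfl s01_r10000 s01_r10001

theorem s01_r100 : Sound P01 32768 8192 0 16384 :=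
  sound_splitA P01 32768 4096 8192 0 16384 rfl s01_r1000 s01_r1001

theorem s01_r10 : Sound P01 32768 8192 0 32768 :=
  sound_splitB P01 32768 8192 0 16384 32768 rfl s01_r100 s01_r101

theorem s01_r1 : Sound P01 32768 16384 0 32768 :=
  sound_splitA P01 32768 8192 16384 0 32768 rfl s01_r10 s01_r11

theorem s01_r : Sound P01 0 32768 0 32768 :=
  sound_splitA P01 0 16384 32768 0 32768 rfl s01_r0 s01_r1

theorem s11_r10 : Sound P11 32768 8192 0 32768 :=
  sound_splitB P11 32768 8192 0 16384 32768 rfl s11_r100 s11_r101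

theorem s11_r1 : Sound P11 32768 16384 0 32768 :=
  sound_splitA P11 32768 8192 16384 0 32768 rfl s11_r10 s11_r11

theorem s11_r : Sound P11 0 32768 0 32768 :=
  sound_splitA P11 0 16384 32768 0 32768 rfl s11_r0 s11_r1

end Vale.Agent.P154.SP
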